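import Crest.Agent.X212.Sm10.Cm1_Mg
import Crest.Agent.X212.Add46.Rad
import Crest.Agent.X212.Glu22.Mix
import Crest.Agent.X212.Wl34.Wl

/-!
# Row 212, HD + IXA + LV (helper82): the plugs
-/

set_option autoImplicit false

namespace Crest.Agent.X212.Hd82
open An M G75 Nd18

variable {κ lam : Type} [Fintype κ] [Fintype lam] [DecidableEq lam] {Lm : LM κ lam}

/-- **HD + IXA + LV** -/
theorem hdStmt (L : IxL κ (lam ⊕ lam) 8) (ly : Rf65.LyStmt Lm) : Fk18.HdStmt Lm :=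
  hd ⟨L, fun _ => Ixc61.chStmt (by norm_num) (fun _ _ _ _ _ X => X.fred) Top36.kapStmt,
    Inv14.pInv κ (lam ⊕ lam) (k := 8) (by norm_num), fun _ _ _ D => Wl34.wl D, ly, Exs4.stz _ _,
    fun _ _ _ _ _ _ _ _ _ _ _ _ _ _ _ J c => Chx18.chx J c L,
    fun _ _ _ _ _ _ _ _ _ _ _ _ _ _ _ J c => Add46.spx J c L, Add46.rad Lm L,
    Hd28.hwStmt κ lam, Glu22.mix Lm, Sm10.Cm.cm⟩

end Crest.Agent.X212.Hd82
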